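import Vale.Agent.P227.Lp.Calc.Tools

/-!
# P227: volumes of polytopes in every dimension

The facet `p` of a polytope is reduced, by eliminating one coordinate, to a polytope of one
dimension less. So the derivative of the volume is again such a volume, and every statement about
the volume applies to its derivatives.
-/

namespace Vale.Agent.P227.LpN.Calc

open MeasureTheory Set Filter Topology Matrix Function
open scoped Pointwise
open Vale.Agent.P227.Lp.Calc (isCompact_poly continuousAt_measure_poly slice_deriv hasFDerivAt_partials)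

noncomputable section

variable {κ : Type} {n : ℕ}

/-- The polytope cut out by `μ k ⬝ x ≤ c k`. -/
def gbody (μ : κ → Fin n → ℝ) (c : κ → ℝ) : Set (Fin n → ℝ) := {x | ∀ k, μ k ⬝ᵥ x ≤ c k}

/-- Its volume. -/
def gvol (μ : κ → Fin n → ℝ) (c : κ → ℝ) : ℝ := (volume (gbody μ c)).toReal

/-- No recession direction. -/
def Rec (μ : κ → Fin n → ℝ) : Prop := ∀ y, (∀ k, μ k ⬝ᵥ y ≤ 0) → y = 0

/-- Zero rows have nonzero offsets. -/
def Ok (μ : κ → Fin n → ℝ) (c : κ → ℝ) : Prop := ∀ k, μ k = 0 → c k ≠ 0

/-- Scalar product as a continuous functional. -/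
def dotL (v : Fin n → ℝ) : (Fin n → ℝ) →L[ℝ] ℝ := LinearMap.toContinuousLinearMap
  { toFun := fun x => v ⬝ᵥ x
    map_add' := fun x y => dotProduct_add v x y
    map_smul' := fun r x => by rw [dotProduct_smul, RingHom.id_apply] }

@[simp] theorem dotL_apply (v x : Fin n → ℝ) : dotL v x = v ⬝ᵥ x := rfl

open Classical in
/-- A coordinate in which `v` is not zero. -/
def piv (v : Fin (n + 1) → ℝ) : Fin (n + 1) := if h : ∃ i, v i ≠ 0 then h.choose else 0

theorem piv_ne {v : Fin (n + 1) → ℝ} (hv : v ≠ 0) : v (piv v) ≠ 0 := by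
  have h : ∃ i, v i ≠ 0 := Function.ne_iff.1 hv
  rw [piv, dif_pos h]
  exact h.choose_spec

section Reduce

variable (μ : κ → Fin (n + 1) → ℝ) (p : κ)

/-- The pivot entry. -/
def pv : ℝ := μ p (piv (μ p))

/-- The multiple of row `p` removed from row `k`. -/
def rat (k : κ) : ℝ := μ k (piv (μ p)) / pv μ p

/-- The rows of the facet `p`. -/
def red (k : {k : κ // k ≠ p}) : Fin n → ℝ :=
  fun j => μ k.1 ((piv (μ p)).succAbove j) - rat μ p k.1 * μ p ((piv (μ p)).succAbove j)

/-- The offsets of the facet `p`. -/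
def off : (κ → ℝ) →L[ℝ] ({k : κ // k ≠ p} → ℝ) :=
  ContinuousLinearMap.pi fun k => ContinuousLinearMap.proj (R := ℝ) (φ := fun _ : κ => ℝ) k.1
    - rat μ p k.1 • ContinuousLinearMap.proj (R := ℝ) (φ := fun _ : κ => ℝ) p

@[simp] theorem off_apply (c : κ → ℝ) (k : {k : κ // k ≠ p}) :
    off μ p c k = c k.1 - rat μ p k.1 * c p := rfl

/-- Coordinates adapted to the row `p`. -/
def crd (x : Fin (n + 1) → ℝ) : ℝ × (Fin n → ℝ) :=
  (μ p ⬝ᵥ x, fun j => x ((piv (μ p)).succAbove j))

open Classical in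
/-- The derivative of the volume in the offset `p`. -/
def gA (c : κ → ℝ) : ℝ := if μ p = 0 then 0 else gvol (red μ p) (off μ p c) / |pv μ p|

variable {μ p}

theorem pv_ne (hp : μ p ≠ 0) : pv μ p ≠ 0 := piv_ne hp

theorem dot_eq (hp : μ p ≠ 0) (k : {k : κ // k ≠ p}) (x : Fin (n + 1) → ℝ) :
    μ k.1 ⬝ᵥ x = rat μ p k.1 * (crd μ p x).1 + red μ p k ⬝ᵥ (crd μ p x).2 := by
  simp only [crd, red, dotProduct, Fin.sum_univ_succAbove _ (piv (μ p)), sub_mul,
    Finset.sum_sub_distrib, mul_assoc, ← Finset.mul_sum]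
  have : rat μ p k.1 * μ p (piv (μ p)) = μ k.1 (piv (μ p)) := div_mul_cancel₀ _ (pv_ne hp)
  linear_combination (-(x (piv (μ p)))) * this

theorem crd_surj (hp : μ p ≠ 0) (s : ℝ) (y : Fin n → ℝ) : ∃ x, crd μ p x = (s, y) := by
  have ha : μ p (piv (μ p)) ≠ 0 := pv_ne hp
  refine ⟨(piv (μ p)).insertNth
    ((s - ∑ j, μ p ((piv (μ p)).succAbove j) * y j) / μ p (piv (μ p))) y, Prod.ext ?_ ?_⟩
  · simp only [crd, dotProduct, Fin.sum_univ_succAbove _ (piv (μ p)), Fin.insertNth_apply_same,
      Fin.insertNth_apply_succAbove]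
    rw [mul_div_cancel₀ _ ha]
    ring
  · funext j
    simp [crd]

theorem volume_crd (hp : μ p ≠ 0) {S : Set (ℝ × (Fin n → ℝ))} (hS : MeasurableSet S) :
    volume (crd μ p ⁻¹' S) = ENNReal.ofReal |(pv μ p)⁻¹| * volume S := by
  set i := piv (μ p)
  set b : (Fin n → ℝ) → ℝ := fun y => ∑ j, μ p (i.succAbove j) * y j
  set g : ℝ × (Fin n → ℝ) → ℝ × (Fin n → ℝ) := fun z => (pv μ p * z.1 + b z.2, z.2)
  have hb : Continuous b := by fun_prop
  have hg : Continuous g := by fun_prop
  have he : crd μ p ⁻¹' S = (MeasurableEquiv.piFinSuccAbove (fun _ => ℝ) i) ⁻¹' (g ⁻¹' S) := by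
    ext x
    simp only [mem_preimage]
    rw [show crd μ p x = g (MeasurableEquiv.piFinSuccAbove (fun _ => ℝ) i x) from Prod.ext (by
      simp [crd, g, b, pv, dotProduct, Fin.sum_univ_succAbove _ i, Fin.removeNth_apply, i]) (by
      funext j; simp [crd, g, Fin.removeNth_apply, i])]
  rw [he, (volume_preserving_piFinSuccAbove (fun _ : Fin (n + 1) => ℝ) i).measure_preimage
    (hg.measurable hS).nullMeasurableSet, Measure.volume_eq_prod,
    Measure.prod_apply_symm (hg.measurable hS), Measure.prod_apply_symm hS,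
    ← lintegral_const_mul' _ _ ENNReal.ofReal_ne_top]
  refine lintegral_congr fun y => ?_
  have e : (fun t => (t, y)) ⁻¹' (g ⁻¹' S) =
      (fun t => pv μ p * t) ⁻¹' ((fun s => s + b y) ⁻¹' ((fun t => (t, y)) ⁻¹' S)) := rfl
  rw [e, Real.volume_preimage_mul_left (pv_ne hp), measure_preimage_add_right]

theorem rec_red (hμ : Rec μ) (hp : μ p ≠ 0) : Rec (red μ p) := by
  intro y hy
  obtain ⟨x, hx⟩ := crd_surj hp 0 y
  have hz : x = 0 := by
    refine hμ x fun k => ?_
    rcases eq_or_ne k p with rfl | hk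
    · exact le_of_eq (congrArg Prod.fst hx)
    · rw [dot_eq hp ⟨k, hk⟩, hx]
      simpa using hy ⟨k, hk⟩
  have := congrArg Prod.snd hx
  subst hz
  funext j
  simpa [crd] using (congrFun this j).symm

end Reduce

section Volume

variable [Fintype κ] {μ : κ → Fin n → ℝ}

theorem isCompact_gbody (hμ : Rec μ) (c : κ → ℝ) : IsCompact (gbody μ c) := by
  simpa [gbody] using isCompact_poly Finset.univ (fun k => dotL (μ k))
    (fun y hy => hμ y fun k => hy k (Finset.mem_univ k)) c

theorem null_hyperplane {v : Fin n → ℝ} (hv : v ≠ 0) (e : ℝ) :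
    volume {x : Fin n → ℝ | v ⬝ᵥ x = e} = 0 := by
  cases n with
  | zero => exact absurd (funext fun i => i.elim0) hv
  | succ m =>
    have hm : MeasurableSet (({e} : Set ℝ) ×ˢ (univ : Set (Fin m → ℝ))) :=
      (measurableSet_singleton e).prod MeasurableSet.univ
    rw [show {x : Fin (m + 1) → ℝ | v ⬝ᵥ x = e} =
        crd (fun _ : Unit => v) () ⁻¹' (({e} : Set ℝ) ×ˢ univ) by ext x; simp [crd],
      volume_crd (μ := fun _ : Unit => v) (p := ()) hv hm, Measure.volume_eq_prod, Measure.prod_prod,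
      Real.volume_singleton, zero_mul, mul_zero]

theorem continuousAt_gvol (hμ : Rec μ) {c : κ → ℝ} (hc : Ok μ c) : ContinuousAt (gvol μ) c := by
  have h := continuousAt_measure_poly volume Finset.univ (fun k => dotL (μ k))
    (fun y hy => hμ y fun k => hy k (Finset.mem_univ k)) (fun c : κ → ℝ => c) (z₀ := c)
    (fun k _ => (continuous_apply k).continuousAt) fun k _ => ?_
  · unfold gvol gbody
    simpa using h
  · simp only [dotL_apply]
    rcases eq_or_ne (μ k) 0 with h0 | h0
    · refine measure_mono_null (t := ∅) (fun x hx => hc k h0 ?_) measure_empty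
      simpa [h0] using (show μ k ⬝ᵥ x = c k from hx).symm
    · exact null_hyperplane h0 _

theorem eventually_ok {c : κ → ℝ} (hc : Ok μ c) : ∀ᶠ z in 𝓝 c, Ok μ z := by
  refine Filter.eventually_all.2 fun k => ?_
  by_cases h0 : μ k = 0
  · filter_upwards [(continuous_apply k).continuousAt.eventually_ne (hc k h0)] with z hz _ using hz
  · exact Eventually.of_forall fun z h => absurd h h0

omit [Fintype κ] in
theorem gvol_smul (c : κ → ℝ) {t : ℝ} (ht : 0 < t) : gvol μ (t • c) = t ^ n * gvol μ c := by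
  have e : gbody μ (t • c) = t • gbody μ c := by
    ext x
    rw [mem_smul_set_iff_inv_smul_mem₀ ht.ne']
    refine forall_congr' fun k => ?_
    rw [dotProduct_smul, smul_eq_mul, Pi.smul_apply, smul_eq_mul, inv_mul_le_iff₀ ht]
  rw [gvol, e, Measure.addHaar_smul_of_nonneg _ ht.le, ENNReal.toReal_mul, gvol,
    ENNReal.toReal_ofReal (by positivity), Module.finrank_fin_fun]

end Volume

section Deriv

variable [Fintype κ] [DecidableEq κ] {μ : κ → Fin (n + 1) → ℝ}

/-- Where the first derivative exists: neither the system nor a facet degenerates. -/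
def Nice (μ : κ → Fin (n + 1) → ℝ) (c : κ → ℝ) : Prop :=
  Ok μ c ∧ ∀ p, μ p ≠ 0 → Ok (red μ p) (off μ p c)

theorem eventually_nice {c : κ → ℝ} (hc : Nice μ c) : ∀ᶠ z in 𝓝 c, Nice μ z := by
  refine (eventually_ok hc.1).and (Filter.eventually_all.2 fun p => ?_)
  by_cases hp : μ p = 0
  · exact Eventually.of_forall fun z h => absurd hp h
  · exact ((off μ p).continuous.continuousAt.eventually (eventually_ok (hc.2 p hp))).mono
      fun z hz _ => hz

theorem continuousAt_gA (hμ : Rec μ) {c : κ → ℝ} (hc : Nice μ c) (p : κ) :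
    ContinuousAt (gA μ p) c := by
  unfold gA
  by_cases hp : μ p = 0
  · simp only [hp, if_true]
    exact continuousAt_const
  · simp only [hp, if_false]
    exact ((continuousAt_gvol (rec_red hμ hp) (hc.2 p hp)).comp
      (off μ p).continuous.continuousAt).div_const _

omit [Fintype κ] [DecidableEq κ] in
theorem gA_nonneg (μ : κ → Fin (n + 1) → ℝ) (p : κ) (c : κ → ℝ) : 0 ≤ gA μ p c := by
  unfold gA
  split_ifs
  · rfl
  · exact div_nonneg ENNReal.toReal_nonneg (abs_nonneg _)

theorem hasDerivAt_gvol (hμ : Rec μ) {c : κ → ℝ} (hc : Nice μ c) (p : κ) :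
    HasDerivAt (fun u => gvol μ (update c p u)) (gA μ p c) (c p) := by
  by_cases hp : μ p = 0
  · rw [gA, if_pos hp]
    refine (hasDerivAt_const (c p) (gvol μ c)).congr_of_eventuallyEq ?_
    have hsign : ∀ᶠ u in 𝓝 (c p), (0 ≤ u ↔ 0 ≤ c p) := by
      rcases lt_or_gt_of_ne (hc.1 p hp) with h | h
      · filter_upwards [eventually_lt_nhds h] with u hu
        exact iff_of_false (not_le.2 hu) (not_le.2 h)
      · filter_upwards [eventually_gt_nhds h] with u hu
        exact iff_of_true hu.le h.le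
    filter_upwards [hsign] with u hu
    simp only [gvol]
    congr 2
    ext x
    refine forall_congr' fun k => ?_
    rcases eq_or_ne k p with rfl | hk
    · simp [hp, hu]
    · simp [update_of_ne hk]
  · have ha := pv_ne hp
    let T : Set (ℝ × (Fin n → ℝ)) :=
      {P | P.2 ∈ gbody (red μ p) (off μ p (update c p P.1))}
    have hT : MeasurableSet T := by
      have hTe : T = ⋂ k : {k : κ // k ≠ p}, {P : ℝ × (Fin n → ℝ) |
          red μ p k ⬝ᵥ P.2 ≤ c k.1 - rat μ p k.1 * P.1} := by
        ext P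
        simp only [T, gbody, mem_ofPred_eq, mem_iInter, off_apply, update_self]
        exact forall_congr' fun k => by rw [update_of_ne k.2]
      rw [hTe]
      exact MeasurableSet.iInter fun k =>
        (isClosed_le (by simp only [dotProduct]; fun_prop) (by fun_prop)).measurableSet
    have hpre : ∀ u, gbody μ (update c p u) = crd μ p ⁻¹' (T ∩ {P | P.1 ≤ u}) := by
      intro u
      ext x
      simp only [gbody, mem_ofPred_eq, mem_preimage, mem_inter_iff, T, off_apply, update_self]
      constructor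
      · intro h
        refine ⟨fun k => ?_, ?_⟩
        · have := h k.1
          rw [update_of_ne k.2, dot_eq hp k] at this
          rw [update_of_ne k.2]
          linarith
        · simpa [crd] using h p
      · rintro ⟨h, hu⟩ k
        rcases eq_or_ne k p with rfl | hk
        · simpa [crd] using hu
        · have := h ⟨k, hk⟩
          rw [update_of_ne hk] at this ⊢
          rw [dot_eq hp ⟨k, hk⟩]
          linarith
    have hmT : ∀ u, MeasurableSet (T ∩ {P | P.1 ≤ u}) := fun u =>
      hT.inter (isClosed_le continuous_fst continuous_const).measurableSet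
    have hval : ∀ u, volume (gbody μ (update c p u)) =
        ENNReal.ofReal |(pv μ p)⁻¹| * volume (T ∩ {P | P.1 ≤ u}) := fun u => by
      rw [hpre, volume_crd hp (hmT u)]
    have hd := slice_deriv hT
      (fun u hinf => by
        refine ((isCompact_gbody hμ (update c p u)).measure_lt_top (μ := volume)).ne ?_
        rw [hval, hinf, ENNReal.mul_top]
        simpa using ha)
      (fun s => ((isCompact_gbody (rec_red hμ hp) (off μ p (update c p s))).measure_lt_top (μ := volume)).ne)
      (u₀ := c p) (ContinuousAt.comp' (f := fun s => off μ p (update c p s))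
        (g := gvol (red μ p)) (x := c p) (continuousAt_gvol (rec_red hμ hp)
          (by rw [update_eq_self]; exact hc.2 p hp))
        ((off μ p).continuous.comp (continuous_const.update p continuous_id)).continuousAt)
    have hd' := hd.const_mul |(pv μ p)⁻¹|
    refine (hd'.congr_of_eventuallyEq (Eventually.of_forall fun u => ?_)).congr_deriv ?_
    · simp only [gvol, hval, ENNReal.toReal_mul, ENNReal.toReal_ofReal (abs_nonneg _)]
    · change |(pv μ p)⁻¹| * gvol (red μ p) (off μ p (update c p (c p))) = _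
      rw [gA, if_neg hp, update_eq_self, abs_inv, inv_mul_eq_div]

/-- The volume is differentiable where the system is nice. -/
theorem hasFDerivAt_gvol (hμ : Rec μ) {c : κ → ℝ} (hc : Nice μ c) : HasFDerivAt (gvol μ)
    (∑ k, gA μ k c • ContinuousLinearMap.proj (R := ℝ) (φ := fun _ : κ => ℝ) k) c :=
  hasFDerivAt_partials
    ((eventually_nice hc).mono fun _ hz k => hasDerivAt_gvol hμ hz k)
    (continuousAt_gA hμ hc)

theorem euler (hμ : Rec μ) {c : κ → ℝ} (hc : Nice μ c) :
    ∑ k, c k * gA μ k c = (n + 1 : ℕ) * gvol μ c := by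
  have h1 : HasDerivAt (fun t : ℝ => gvol μ (t • c)) (∑ k, c k * gA μ k c) 1 := by
    have := (hasFDerivAt_gvol hμ hc).comp_hasDerivAt_of_eq (1 : ℝ)
      ((hasDerivAt_id (1 : ℝ)).smul_const c) (one_smul ℝ c).symm
    refine this.congr_deriv ?_
    simp [mul_comm]
  have h2 : HasDerivAt (fun t : ℝ => t ^ (n + 1) * gvol μ c) ((n + 1 : ℕ) * gvol μ c) 1 := by
    simpa using (hasDerivAt_pow (n + 1) (1 : ℝ)).mul_const (gvol μ c)
  refine (h1.congr_of_eventuallyEq ?_).unique h2
  filter_upwards [eventually_gt_nhds one_pos] with t ht using (gvol_smul c ht).symm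

end Deriv

section Second

variable [Fintype κ] [DecidableEq κ] {μ : κ → Fin (n + 2) → ℝ}

/-- The second derivative of the volume. -/
def gH (μ : κ → Fin (n + 2) → ℝ) (p k : κ) (c : κ → ℝ) : ℝ :=
  if μ p = 0 then 0 else
    (∑ l, gA (red μ p) l (off μ p c) * off μ p (Pi.single k 1) l) / |pv μ p|

/-- Where the second derivative exists. -/
def Nice2 (μ : κ → Fin (n + 2) → ℝ) (c : κ → ℝ) : Prop :=
  Nice μ c ∧ ∀ p, μ p ≠ 0 → Nice (red μ p) (off μ p c)

theorem eventually_nice2 {c : κ → ℝ} (hc : Nice2 μ c) : ∀ᶠ z in 𝓝 c, Nice2 μ z := by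
  refine (eventually_nice hc.1).and (Filter.eventually_all.2 fun p => ?_)
  by_cases hp : μ p = 0
  · exact Eventually.of_forall fun z h => absurd hp h
  · exact ((off μ p).continuous.continuousAt.eventually (eventually_nice (hc.2 p hp))).mono
      fun z hz _ => hz

theorem gH_off {p k : κ} (hp : μ p ≠ 0) (hk : k ≠ p) (c : κ → ℝ) :
    gH μ p k c = gA (red μ p) ⟨k, hk⟩ (off μ p c) / |pv μ p| := by
  rw [gH, if_neg hp, Finset.sum_eq_single (⟨k, hk⟩ : {k // k ≠ p})]
  · simp [hk.symm]
  · intro l _ hl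
    have : l.1 ≠ k := fun h => hl (Subtype.ext h)
    simp [hk.symm, this]
  · simp

theorem hasFDerivAt_gA (hμ : Rec μ) {c : κ → ℝ} (hc : Nice2 μ c) (p : κ) : HasFDerivAt (gA μ p)
    (∑ k, gH μ p k c • ContinuousLinearMap.proj (R := ℝ) (φ := fun _ : κ => ℝ) k) c := by
  by_cases hp : μ p = 0
  · have e : gA μ p = fun _ => 0 := funext fun c => if_pos hp
    rw [e]
    refine (hasFDerivAt_const 0 c).congr_fderiv ?_
    simp [gH, hp]
  · have e : gA μ p = fun c => |pv μ p|⁻¹ * gvol (red μ p) (off μ p c) :=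
      funext fun c => by rw [gA, if_neg hp, inv_mul_eq_div]
    rw [e]
    refine (((hasFDerivAt_gvol (rec_red hμ hp) (hc.2 p hp)).comp c
      (off μ p).hasFDerivAt).const_mul _).congr_fderiv ?_
    refine ContinuousLinearMap.ext fun v => ?_
    simp only [gH, hp, if_false, ContinuousLinearMap.comp_apply, _root_.smul_apply, smul_eq_mul,
      _root_.sum_apply, ContinuousLinearMap.proj_apply]
    have hv : ∀ l, off μ p v l = ∑ k, v k * off μ p (Pi.single k 1) l := fun l => by
      conv_lhs => rw [pi_eq_sum_univ v, map_sum]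
      simp only [map_smul, Finset.sum_apply, Pi.smul_apply, smul_eq_mul]
      refine Finset.sum_congr rfl fun k _ => ?_
      rw [show (fun j : κ => if k = j then (1 : ℝ) else 0) = Pi.single k 1 from
        funext fun i => by simp [Pi.single_apply, eq_comm]]
    simp only [hv, Finset.mul_sum, div_mul_eq_mul_div, Finset.sum_mul, Finset.sum_div]
    rw [Finset.sum_comm]
    exact Finset.sum_congr rfl fun l _ => Finset.sum_congr rfl fun k _ => by ring

theorem continuousAt_gH (hμ : Rec μ) {c : κ → ℝ} (hc : Nice2 μ c) (p k : κ) :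
    ContinuousAt (gH μ p k) c := by
  unfold gH
  by_cases hp : μ p = 0
  · simp only [hp, if_true]
    exact continuousAt_const
  · simp only [hp, if_false]
    exact (tendsto_finsetSum _ fun l _ => ((continuousAt_gA (rec_red hμ hp) (hc.2 p hp) l).comp
      (off μ p).continuous.continuousAt).mul continuousAt_const).div_const _

theorem euler_gA (hμ : Rec μ) {c : κ → ℝ} (hc : Nice2 μ c) (p : κ) :
    ∑ k, gH μ p k c * c k = (n + 1 : ℕ) * gA μ p c := by
  have hs : ∀ t : ℝ, 0 < t → gA μ p (t • c) = t ^ (n + 1) * gA μ p c := fun t ht => by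
    unfold gA
    split_ifs
    · simp
    · rw [map_smul, gvol_smul _ ht, mul_div_assoc]
  have h1 : HasDerivAt (fun t : ℝ => gA μ p (t • c)) (∑ k, gH μ p k c * c k) 1 := by
    have := (hasFDerivAt_gA hμ hc p).comp_hasDerivAt_of_eq (1 : ℝ)
      ((hasDerivAt_id (1 : ℝ)).smul_const c) (one_smul ℝ c).symm
    exact this.congr_deriv (by simp)
  have h2 : HasDerivAt (fun t : ℝ => t ^ (n + 1) * gA μ p c) ((n + 1 : ℕ) * gA μ p c) 1 := by
    simpa using (hasDerivAt_pow (n + 1) (1 : ℝ)).mul_const (gA μ p c)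
  refine (h1.congr_of_eventuallyEq ?_).unique h2
  filter_upwards [eventually_gt_nhds one_pos] with t ht using (hs t ht).symm

theorem gH_symm (hμ : Rec μ) {c : κ → ℝ} (hc : Nice2 μ c) (p k : κ) :
    gH μ p k c = gH μ k p c := by
  set f' : (κ → ℝ) → (κ → ℝ) →L[ℝ] ℝ := fun z =>
    ∑ i, gA μ i z • ContinuousLinearMap.proj (R := ℝ) (φ := fun _ : κ => ℝ) i
  have h1 : ∀ᶠ z in 𝓝 c, HasFDerivAt (gvol μ) (f' z) z :=
    (eventually_nice hc.1).mono fun z hz => hasFDerivAt_gvol hμ hz
  have h2 := HasFDerivAt.fun_sum (u := (Finset.univ : Finset κ)) (fun i _ =>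
    (hasFDerivAt_gA hμ hc i).smul_const
      (ContinuousLinearMap.proj (R := ℝ) (φ := fun _ : κ => ℝ) i))
  have := second_derivative_symmetric_of_eventually h1 h2 (Pi.single k 1) (Pi.single p 1)
  simpa [Pi.single_apply, Finset.sum_ite_eq'] using this

end Second

end

end Vale.Agent.P227.LpN.Calc
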