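import Vale.Agent.P227.LpN.Calc.Basic

/-!
# P227: where every facet is present the calculus applies
-/

namespace Vale.Agent.P227.LpN.Calc

open MeasureTheory Set Filter Topology Matrix Function

noncomputable section

variable {κ : Type} {n : ℕ}

/-- Nonzero normals without recession direction, parallel only if opposite. -/
structure GFam (μ : κ → Fin (n + 1) → ℝ) : Prop where
  recession : Rec μ
  ne_zero : ∀ k, μ k ≠ 0
  par : ∀ k p (t : ℝ), k ≠ p → μ k = t • μ p → t < 0

/-- Positive offsets. -/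
def Pos (c : κ → ℝ) : Prop := ∀ k, 0 < c k

/-- Positive offsets with every facet present. -/
def GFull (μ : κ → Fin (n + 1) → ℝ) (c : κ → ℝ) : Prop := Pos c ∧ ∀ k, 0 < gA μ k c

variable {μ : κ → Fin (n + 1) → ℝ}

theorem red_eq_zero {p : κ} (hp : μ p ≠ 0) {k : {k : κ // k ≠ p}} (h : red μ p k = 0) :
    μ k.1 = rat μ p k.1 • μ p := by
  refine dotProduct_eq _ _ fun x => ?_
  rw [dot_eq hp k x, h, zero_dotProduct, add_zero, smul_dotProduct, smul_eq_mul]
  simp [crd]

theorem nice_of_pos (hμ : GFam μ) {c : κ → ℝ} (hc : Pos c) : Nice μ c := by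
  refine ⟨fun k h => absurd h (hμ.ne_zero k), fun p hp k hk => ?_⟩
  have ht := hμ.par k.1 p _ k.2 (red_eq_zero hp hk)
  rw [off_apply]
  nlinarith [hc p, hc k.1]

variable [Fintype κ]

omit [Fintype κ] in
/-- A redundant facet has no area. -/
theorem gA_middle (hμ : GFam μ) {c : κ → ℝ} {m i j : κ} (him : i ≠ m) (hjm : j ≠ m) {a b : ℝ}
    (ha : 0 < a) (hb : 0 < b) (hm : μ m = a • μ i + b • μ j) (hcm : c m = a * c i + b * c j) :
    gA μ m c = 0 := by
  have hm0 := hμ.ne_zero m
  have hi : red μ m ⟨i, him⟩ ≠ 0 := by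
    intro h0
    have e := red_eq_zero hm0 h0
    have ht := hμ.par i m _ him e
    rw [e, smul_smul] at hm
    have : μ j = ((1 - a * rat μ m i) / b) • μ m := by
      have hm' : b • μ j = (1 - a * rat μ m i) • μ m := by
        rw [sub_smul, one_smul]
        nth_rewrite 1 [hm]
        abel
      rw [div_eq_inv_mul, ← smul_smul, ← hm', smul_smul, inv_mul_cancel₀ hb.ne', one_smul]
    have h2 := hμ.par j m _ hjm this
    rw [div_lt_iff₀ hb, zero_mul] at h2
    nlinarith
  have hsub : gbody (red μ m) (off μ m c) ⊆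
      {y | red μ m ⟨i, him⟩ ⬝ᵥ y = off μ m c ⟨i, him⟩} := by
    intro y hy
    obtain ⟨x, hx⟩ := crd_surj hm0 (c m) y
    have hk : ∀ k (hk : k ≠ m), μ k ⬝ᵥ x = rat μ m k * c m + red μ m ⟨k, hk⟩ ⬝ᵥ y := fun k hk => by
      rw [dot_eq hm0 ⟨k, hk⟩, hx]
    have hmx : μ m ⬝ᵥ x = c m := congrArg Prod.fst hx
    have h1 := hy ⟨i, him⟩
    have h2 := hy ⟨j, hjm⟩
    rw [off_apply] at h1 h2
    rw [hm, add_dotProduct, smul_dotProduct, smul_dotProduct, smul_eq_mul, smul_eq_mul, hk i him,
      hk j hjm] at hmx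
    rw [mem_ofPred_eq, off_apply]
    refine le_antisymm h1 (le_of_mul_le_mul_left ?_ ha)
    nlinarith [mul_le_mul_of_nonneg_left h2 hb.le]
  have h0 : gvol (red μ m) (off μ m c) = 0 := by
    rw [gvol, measure_mono_null hsub (null_hyperplane hi _), ENNReal.toReal_zero]
  rw [gA, if_neg hm0, h0, zero_div]

end

noncomputable section

variable {κ : Type} {n : ℕ} [Fintype κ] {μ : κ → Fin (n + 2) → ℝ}

/-- Three hyperplanes through one face of codimension two do not occur. -/
theorem nice2_of_full (hμ : GFam μ) {c : κ → ℝ} (hc : GFull μ c) : Nice2 μ c := by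
  have hnice := nice_of_pos hμ hc.1
  refine ⟨hnice, fun p hp => ⟨hnice.2 p hp, fun q hq l hl h0 => ?_⟩⟩
  have e' := red_eq_zero hq hl
  set r := rat (red μ p) q l.1 with hr
  set α := rat μ p l.1.1 - r * rat μ p q.1 with hα
  have hqp : q.1 ≠ p := q.2
  have hlp : l.1.1 ≠ p := l.1.2
  have hlq : l.1.1 ≠ q.1 := fun h => l.2 (Subtype.ext h)
  have hvec : μ l.1.1 = α • μ p + r • μ q.1 := by
    refine dotProduct_eq _ _ fun x => ?_
    rw [add_dotProduct, smul_dotProduct, smul_dotProduct, smul_eq_mul, smul_eq_mul, dot_eq hp l.1 x,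
      dot_eq hp q x, e', smul_dotProduct, smul_eq_mul,
      show (crd μ p x).1 = μ p ⬝ᵥ x from rfl, hα]
    ring
  have hoff : c l.1.1 = α * c p + r * c q.1 := by
    rw [off_apply, ← hr, off_apply, off_apply, sub_eq_zero] at h0
    rw [hα]
    linear_combination h0
  have hP := hc.1 p
  have hQ := hc.1 q.1
  have hL := hc.1 l.1.1
  rcases le_or_gt α 0 with ha | ha <;> rcases le_or_gt r 0 with hb | hb
  · nlinarith [mul_nonpos_of_nonpos_of_nonneg ha hP.le, mul_nonpos_of_nonpos_of_nonneg hb hQ.le]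
  · rcases eq_or_lt_of_le ha with ha | ha
    · rw [ha, zero_smul, zero_add] at hvec
      linarith [hμ.par l.1.1 q.1 r hlq hvec]
    · refine (hc.2 q.1).ne' (gA_middle hμ (c := c) hlq hqp.symm (inv_pos.2 hb)
        (div_pos (neg_pos.2 ha) hb) ?_ ?_)
      · rw [hvec]
        match_scalars <;> field_simp <;> ring
      · rw [hoff]
        field_simp
        ring
  · rcases eq_or_lt_of_le hb with hb | hb
    · rw [hb, zero_smul, add_zero] at hvec
      linarith [hμ.par l.1.1 p α hlp hvec]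
    · refine (hc.2 p).ne' (gA_middle hμ (c := c) hlp hqp (inv_pos.2 ha)
        (div_pos (neg_pos.2 hb) ha) ?_ ?_)
      · rw [hvec]
        match_scalars <;> field_simp <;> ring
      · rw [hoff]
        field_simp
        ring
  · exact (hc.2 l.1.1).ne' (gA_middle hμ (c := c) hlp.symm hlq.symm ha hb hvec hoff)

end

noncomputable section

variable {κ : Type} {n : ℕ} [Fintype κ] [DecidableEq κ]

theorem isOpen_gfull {μ : κ → Fin (n + 1) → ℝ} (hμ : GFam μ) : IsOpen {c | GFull μ c} := by
  refine isOpen_iff_mem_nhds.2 fun c hc => ?_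
  filter_upwards [eventually_all.2 fun k => (continuous_apply k).continuousAt.eventually_const_lt
      (hc.1 k),
    eventually_all.2 fun k => (continuousAt_gA hμ.recession (nice_of_pos hμ hc.1) k).eventually_const_lt
      (hc.2 k)] with z hz hz' using ⟨hz, hz'⟩

theorem gH_off_nonneg (μ : κ → Fin (n + 2) → ℝ) {p k : κ} (hk : k ≠ p) (c : κ → ℝ) :
    0 ≤ gH μ p k c := by
  by_cases hp : μ p = 0
  · simp [gH, hp]
  · rw [gH_off hp hk]
    exact div_nonneg (gA_nonneg _ _ _) (abs_nonneg _)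

end

end Vale.Agent.P227.LpN.Calc
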