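import Vale.Agent.P227.LpN.Calc.Basic

/-!
# P227: the volume is piecewise a form of the degree of the dimension
-/

namespace Vale.Agent.P227.LpN.Calc

open MeasureTheory Set Filter Topology Matrix Function

noncomputable section

variable {κ : Type} [Fintype κ] [DecidableEq κ] {n : ℕ}

omit [DecidableEq κ] in
/-- A direction leaving every exceptional hyperplane. -/
theorem exists_generic (r : κ → κ → ℝ) : ∃ d : κ → ℝ, ∀ p k, k ≠ p → d k - r p k * d p ≠ 0 := by
  classical
  set e := Fintype.equivFin κ
  set Q : κ × κ → Polynomial ℝ := fun x =>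
    Polynomial.X ^ (e x.2 : ℕ) - Polynomial.C (r x.1 x.2) * Polynomial.X ^ (e x.1 : ℕ)
  obtain ⟨u, hu⟩ := Infinite.exists_notMem_finset
    (Finset.univ.biUnion fun x => (Q x).roots.toFinset)
  refine ⟨fun k => u ^ (e k : ℕ), fun p k hk h0 => hu ?_⟩
  refine Finset.mem_biUnion.2 ⟨(p, k), Finset.mem_univ _, Multiset.mem_toFinset.2
    ((Polynomial.mem_roots ?_).2 (by simpa [Q] using h0))⟩
  intro hQ
  have := congrArg (Polynomial.coeff · (e k : ℕ)) hQ
  have hne : (e k : ℕ) ≠ (e p : ℕ) := fun h => hk (e.injective (Fin.ext h))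
  simp [Q, Polynomial.coeff_X_pow, hne] at this

/-- The reduced offsets as polynomials. -/
def offPoly (μ : κ → Fin (n + 1) → ℝ) (p : κ) (P : MvPolynomial {k : κ // k ≠ p} ℝ) :
    MvPolynomial κ ℝ :=
  MvPolynomial.bind₁ (fun k => MvPolynomial.X k.1 - MvPolynomial.C (rat μ p k.1) * MvPolynomial.X p)
    P

omit [Fintype κ] [DecidableEq κ] in
theorem eval_offPoly (μ : κ → Fin (n + 1) → ℝ) (p : κ) (P : MvPolynomial {k : κ // k ≠ p} ℝ)
    (c : κ → ℝ) : MvPolynomial.eval c (offPoly μ p P) = MvPolynomial.eval (off μ p c) P := by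
  rw [offPoly, ← MvPolynomial.aeval_eq_eval, MvPolynomial.aeval_bind₁, ← MvPolynomial.aeval_eq_eval]
  congr 1
  refine congrArg _ (funext fun k => ?_)
  simp

omit [Fintype κ] [DecidableEq κ] in
theorem homog_offPoly (μ : κ → Fin (n + 1) → ℝ) (p : κ) {P : MvPolynomial {k : κ // k ≠ p} ℝ}
    (h : P.IsHomogeneous n) : (offPoly μ p P).IsHomogeneous n := by
  have hlin : ∀ k : {k : κ // k ≠ p}, (MvPolynomial.X k.1 -
      MvPolynomial.C (rat μ p k.1) * MvPolynomial.X p : MvPolynomial κ ℝ).IsHomogeneous 1 :=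
    fun k => (MvPolynomial.isHomogeneous_X ℝ k.1).sub
      (MvPolynomial.IsHomogeneous.C_mul (MvPolynomial.isHomogeneous_X ℝ p) _)
  have := h.aeval _ hlin
  rwa [one_mul] at this

end

noncomputable section

/-- One of finitely many forms gives the volume. -/
theorem exists_forms : ∀ (n : ℕ) (κ : Type) [Fintype κ] (μ : κ → Fin n → ℝ), Rec μ →
    ∃ S : Finset (MvPolynomial κ ℝ), (∀ P ∈ S, P.IsHomogeneous n) ∧
      ∀ c, Ok μ c → ∃ P ∈ S, gvol μ c = MvPolynomial.eval c P := by
  classical
  intro n
  induction n with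
  | zero =>
    intro κ _ μ _
    refine ⟨{0, 1}, fun P hP => ?_, fun c _ => ?_⟩
    · rcases Finset.mem_insert.1 hP with rfl | hP
      · exact MvPolynomial.isHomogeneous_zero _ _ _
      · rw [Finset.mem_singleton.1 hP]
        exact MvPolynomial.isHomogeneous_one _ _
    · rcases (gbody μ c).eq_empty_or_nonempty with h | ⟨x, hx⟩
      · exact ⟨0, by simp, by simp [gvol, h]⟩
      · refine ⟨1, by simp, ?_⟩
        have : gbody μ c = univ := eq_univ_of_forall fun y => Subsingleton.elim x y ▸ hx
        simp [gvol, this, volume_pi]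
  | succ n ih =>
    intro κ _ μ hμ
    have hS : ∀ p : κ, ∃ S : Finset (MvPolynomial {k : κ // k ≠ p} ℝ),
        (∀ P ∈ S, P.IsHomogeneous n) ∧ ∀ c, μ p ≠ 0 → Ok (red μ p) c →
          ∃ P ∈ S, gvol (red μ p) c = MvPolynomial.eval c P := fun p => by
      by_cases hp : μ p = 0
      · exact ⟨∅, by simp, fun c h => absurd hp h⟩
      · obtain ⟨S, h1, h2⟩ := ih _ (red μ p) (rec_red hμ hp)
        exact ⟨S, h1, fun c _ => h2 c⟩
    choose S hS1 hS2 using hS
    set F : ((p : κ) → MvPolynomial {k : κ // k ≠ p} ℝ) → MvPolynomial κ ℝ := fun g =>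
      ∑ p, MvPolynomial.C ((if μ p = 0 then 0 else |pv μ p|⁻¹) / ((n + 1 : ℕ) : ℝ)) *
        (MvPolynomial.X p * offPoly μ p (g p))
    refine ⟨(Fintype.piFinset fun p => insert 0 (S p)).image F, fun P hP => ?_, fun c hc => ?_⟩
    · obtain ⟨g, hg, rfl⟩ := Finset.mem_image.1 hP
      refine MvPolynomial.IsHomogeneous.sum _ _ _ fun p _ => ?_
      have hgp : (g p).IsHomogeneous n := by
        rcases Finset.mem_insert.1 (Fintype.mem_piFinset.1 hg p) with h | h
        · rw [h]; exact MvPolynomial.isHomogeneous_zero _ _ _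
        · exact hS1 p _ h
      have := (MvPolynomial.isHomogeneous_C κ
        ((if μ p = 0 then 0 else |pv μ p|⁻¹) / ((n + 1 : ℕ) : ℝ))).mul
          ((MvPolynomial.isHomogeneous_X ℝ p).mul (homog_offPoly μ p hgp))
      rwa [zero_add, Nat.add_comm 1 n] at this
    · have hnice : ∀ z, Nice μ z → ∃ P ∈ (Fintype.piFinset fun p => insert 0 (S p)).image F,
          gvol μ z = MvPolynomial.eval z P := by
        intro z hz
        have : ∀ p, ∃ P ∈ insert 0 (S p), μ p ≠ 0 →
            gvol (red μ p) (off μ p z) = MvPolynomial.eval (off μ p z) P := fun p => by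
          by_cases hp : μ p = 0
          · exact ⟨0, by simp, fun h => absurd hp h⟩
          · obtain ⟨P, hP, he⟩ := hS2 p _ hp (hz.2 p hp)
            exact ⟨P, Finset.mem_insert_of_mem hP, fun _ => he⟩
        choose g hg hge using this
        refine ⟨F g, Finset.mem_image_of_mem _ (Fintype.mem_piFinset.2 hg), ?_⟩
        have he := euler hμ hz
        simp only [F, map_sum, map_mul, MvPolynomial.eval_C, MvPolynomial.eval_X, eval_offPoly]
        have hterm : ∀ p, (if μ p = 0 then 0 else |pv μ p|⁻¹) / ((n + 1 : ℕ) : ℝ) *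
            (z p * MvPolynomial.eval (off μ p z) (g p)) = z p * gA μ p z / ((n + 1 : ℕ) : ℝ) := by
          intro p
          unfold gA
          split_ifs with hp
          · simp
          · rw [hge p hp]; ring
        simp only [hterm, ← Finset.sum_div, he]
        rw [mul_div_cancel_left₀]
        positivity
      obtain ⟨d, hd⟩ := exists_generic (rat μ)
      set γ : ℝ → κ → ℝ := fun e => c + e • d
      have hγ : Tendsto γ (𝓝[≠] 0) (𝓝 c) :=
        (Continuous.tendsto' (by fun_prop) 0 c (by simp [γ])).mono_left nhdsWithin_le_nhds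
      have hev : ∀ᶠ e in 𝓝[≠] (0 : ℝ), Nice μ (γ e) := by
        refine (hγ.eventually (eventually_ok hc)).and (eventually_all.2 fun p => ?_)
        refine (eventually_all.2 fun k => ?_).mono fun e h _ k _ => h k
        have h1 : ∀ e, off μ p (γ e) k =
            (c k.1 - rat μ p k.1 * c p) + e * (d k.1 - rat μ p k.1 * d p) := fun e => by
          simp [γ]; ring
        simp only [h1]
        have h2 := hd p k.1 k.2
        rcases eq_or_ne (c k.1 - rat μ p k.1 * c p) 0 with h3 | h3
        · filter_upwards [self_mem_nhdsWithin] with e (he : e ≠ 0)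
          simpa [h3] using mul_ne_zero he h2
        · exact ((Continuous.tendsto' (by fun_prop) 0 (c k.1 - rat μ p k.1 * c p)
            (by simp)).mono_left nhdsWithin_le_nhds).eventually_ne h3
      by_contra hno
      push Not at hno
      have hlim : ∀ᶠ e in 𝓝[≠] (0 : ℝ), ∀ P ∈ (Fintype.piFinset fun p => insert 0 (S p)).image F,
          gvol μ (γ e) ≠ MvPolynomial.eval (γ e) P := by
        refine (Filter.eventually_all_finset _).2 fun P hP => ?_
        by_contra hP'
        rw [not_eventually] at hP'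
        exact hno P hP (tendsto_nhds_unique_of_frequently_eq
          ((continuousAt_gvol hμ hc).tendsto.comp hγ)
          ((MvPolynomial.continuous_eval P).continuousAt.tendsto.comp hγ)
          (hP'.mono fun e he => not_not.1 he))
      obtain ⟨e, he1, he2⟩ := (hlim.and hev).exists
      obtain ⟨P, hP, hPe⟩ := hnice _ he2
      exact he1 P hP hPe

end

end Vale.Agent.P227.LpN.Calc
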